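import Vale.Agent.P038.H227.Star

/-!
# P038: Seymour's second neighbourhood conjecture (helper227's copy).
-/

namespace Vale.Agent.P038.H227

open Finset

noncomputable section
open Classical

variable {V : Type*} [Fintype V]

lemma sub_nb {R : V → V → Prop} (hR : ∀ v, R v v) (S : Finset V) : S ⊆ nb R S :=
  fun x hx => mem_nb.2 ⟨x, hx, hR x⟩

def CE (R : V → V → Prop) : Prop := ∀ v, c R (nb R {v}) < c R {v}

/-- 294's theorem, unweighted: in an arc-minimal counterexample every set expands. -/
theorem plan {R : V → V → Prop} (hR : ∀ v, R v v) (hCE : CE R)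
    (hmin : ∀ R' : V → V → Prop, (∀ v, R' v v) → (∀ a b, R' a b → R a b) → CE R' →
      ∀ a b, R a b → R' a b)
    (X : Finset V) (hX : nb R X ≠ X) : c R (nb R X) < c R X := by
  by_contra hcon
  push Not at hcon
  have hXn : X ⊆ nb R X := sub_nb hR X
  set L := nb R X \ X with hL
  have hLne : L ≠ ∅ := by
    intro h
    apply hX
    refine Subset.antisymm ?_ hXn
    exact sdiff_eq_empty_iff_subset.1 h
  set d : Finset V → ℤ := fun T => ((nb R T \ X).card : ℤ) - 2 * T.card with hd
  have e1 : (nb R X).card = X.card + L.card := by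
    have : L.card + X.card = (nb R X).card := card_sdiff_add_card_eq_card hXn
    omega
  have e2 : nb R (nb R X) = X ∪ (nb R L \ X) := by
    ext u
    rw [mem_union, mem_sdiff]
    constructor
    · intro hu
      obtain ⟨y, hy, hyu⟩ := mem_nb.1 hu
      by_cases huX : u ∈ X
      · exact Or.inl huX
      · right
        refine ⟨?_, huX⟩
        by_cases hyX : y ∈ X
        · have : u ∈ L := mem_sdiff.2 ⟨mem_nb.2 ⟨y, hyX, hyu⟩, huX⟩
          exact sub_nb hR _ this
        · exact mem_nb.2 ⟨y, mem_sdiff.2 ⟨hy, hyX⟩, hyu⟩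
    · rintro (h | ⟨h, _⟩)
      · exact sub_nb hR _ (hXn h)
      · exact nb_mono sdiff_subset h
  have e3 : (nb R (nb R X)).card = X.card + (nb R L \ X).card := by
    rw [e2, card_union_of_disjoint]
    exact disjoint_sdiff
  have hdL : 0 ≤ d L := by
    simp only [hd]
    unfold c at hcon
    rw [e3, e1] at hcon
    push_cast at hcon
    linarith
  obtain ⟨T, hT, hTmin⟩ := exists_min_image (L.powerset.erase L) d
    ⟨∅, mem_erase.2 ⟨fun h => hLne h.symm, by simp⟩⟩
  have hTL : T ⊆ L := mem_powerset.1 (mem_erase.1 hT).2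
  have hTne : T ≠ L := (mem_erase.1 hT).1
  have hd0 : d T ≤ 0 := by
    have := hTmin ∅ (mem_erase.2 ⟨fun h => hLne h.symm, by simp⟩)
    have h0 : d ∅ = 0 := by
      simp only [hd]
      have : nb R (∅ : Finset V) = ∅ := by ext u; simp [mem_nb]
      rw [this]; simp
    linarith
  have key : ∀ D : Finset V, D ⊆ L \ T → d T ≤ d (T ∪ D) := by
    intro D hD
    by_cases h : T ∪ D = L
    · rw [h]; linarith
    · refine hTmin _ (mem_erase.2 ⟨h, mem_powerset.2 ?_⟩)
      exact union_subset hTL (Subset.trans hD sdiff_subset)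
  have key2 : ∀ D : Finset V, D ⊆ L \ T → 2 * D.card ≤ (nb R D \ (nb R T ∪ X)).card := by
    intro D hD
    have h1 := key D hD
    simp only [hd] at h1
    have h2 : (T ∪ D).card = T.card + D.card := by
      rw [card_union_of_disjoint]
      rw [Finset.disjoint_left]
      intro x hx hx'
      exact (mem_sdiff.1 (hD hx')).2 hx
    have h3 : nb R (T ∪ D) \ X = (nb R T \ X) ∪ (nb R D \ (nb R T ∪ X)) := by
      rw [nb_union]
      ext u
      simp only [mem_sdiff, mem_union]
      tauto
    have h4 : (nb R (T ∪ D) \ X).card = (nb R T \ X).card + (nb R D \ (nb R T ∪ X)).card := by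
      rw [h3, card_union_of_disjoint]
      rw [Finset.disjoint_left]
      intro x hx hx'
      simp only [mem_sdiff, mem_union] at hx hx'
      tauto
    rw [h2, h4] at h1
    push_cast at h1
    have : (2 * D.card : ℤ) ≤ (nb R D \ (nb R T ∪ X)).card := by linarith
    exact_mod_cast this
  set R' : V → V → Prop := fun y u => R y u ∧ (y ∈ X → u ∈ X ∪ T) with hR'
  have hR'r : ∀ v, R' v v := fun v => ⟨hR v, fun h => mem_union_left _ h⟩
  have hle : ∀ a b, R' a b → R a b := fun a b h => h.1
  have hCE' : CE R' := by
    intro v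
    have hv := hCE v
    unfold c at hv ⊢
    rw [card_singleton] at hv ⊢
    by_cases hvX : v ∈ X
    · set D := nb R {v} \ (X ∪ T) with hD
      set E := nb R D \ (nb R T ∪ X) with hE
      have hDL : D ⊆ L \ T := by
        intro u hu
        rw [hD, mem_sdiff, mem_union, not_or] at hu
        refine mem_sdiff.2 ⟨mem_sdiff.2 ⟨?_, hu.2.1⟩, hu.2.2⟩
        exact nb_mono (singleton_subset_iff.2 hvX) hu.1
      have h1 : 2 * D.card ≤ E.card := key2 D hDL
      have h2 : nb R' {v} = nb R {v} \ D := by
        ext u
        simp only [mem_nb, mem_singleton, exists_eq_left, hR', hD, mem_sdiff]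
        constructor
        · rintro ⟨h, h'⟩
          exact ⟨h, fun hc => hc.2 (h' hvX)⟩
        · rintro ⟨h, h'⟩
          refine ⟨h, fun _ => ?_⟩
          by_contra hc
          exact h' ⟨h, hc⟩
      have h3 : (nb R' {v}).card + D.card = (nb R {v}).card := by
        rw [h2]
        exact card_sdiff_add_card_eq_card sdiff_subset
      have h4 : nb R' (nb R' {v}) ⊆ nb R (nb R {v}) \ E := by
        intro u hu
        obtain ⟨z, hz, hzu⟩ := mem_nb.1 hu
        rw [mem_sdiff]
        constructor
        · refine mem_nb.2 ⟨z, ?_, hzu.1⟩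
          rw [h2] at hz
          exact (mem_sdiff.1 hz).1
        · intro huE
          rw [hE, mem_sdiff, mem_union, not_or] at huE
          by_cases hzX : z ∈ X
          · rcases mem_union.1 (hzu.2 hzX) with h | h
            · exact huE.2.2 h
            · exact huE.2.1 (sub_nb hR _ h)
          · have hzT : z ∈ T := by
              obtain ⟨y, hy, hyz⟩ := mem_nb.1 hz
              rw [mem_singleton] at hy
              subst hy
              rcases mem_union.1 (hyz.2 hvX) with h | h
              · exact absurd h hzX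
              · exact h
            exact huE.2.1 (mem_nb.2 ⟨z, hzT, hzu.1⟩)
      have hEs : E ⊆ nb R (nb R {v}) := by
        intro u hu
        rw [hE, mem_sdiff] at hu
        exact nb_mono sdiff_subset hu.1
      have h5 := card_le_card h4
      have h6 := card_sdiff_add_card_eq_card hEs
      omega
    · have h2 : nb R' {v} = nb R {v} := by
        ext u
        simp only [mem_nb, mem_singleton, exists_eq_left, hR']
        exact ⟨fun h => h.1, fun h => ⟨h, fun h' => absurd h' hvX⟩⟩
      have h3 : nb R' (nb R' {v}) ⊆ nb R (nb R {v}) := by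
        rw [h2]
        intro u hu
        obtain ⟨z, hz, hzu⟩ := mem_nb.1 hu
        exact mem_nb.2 ⟨z, hz, hzu.1⟩
      have h4 := card_le_card h3
      rw [h2] at h4 ⊢
      omega
  have hfin := hmin R' hR'r hle hCE'
  obtain ⟨l, hlL, hlT⟩ : ∃ l ∈ L, l ∉ T := by
    by_contra hc
    push Not at hc
    exact hTne (Subset.antisymm hTL hc)
  obtain ⟨y, hyX, hyl⟩ := mem_nb.1 (mem_sdiff.1 hlL).1
  rcases mem_union.1 ((hfin y l hyl).2 hyX) with h | h
  · exact (mem_sdiff.1 hlL).2 h
  · exact hlT h

lemma cosz (Z : V → Finset V) :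
    ∑ b, ((univ.filter fun y => b ∉ Z y).card : ℤ)
      = (Fintype.card V : ℤ) * Fintype.card V - sz Z := by
  have h1 : ∀ y, ((univ.filter fun b => b ∉ Z y).card : ℤ) = Fintype.card V - (Z y).card := by
    intro y
    have : (univ.filter fun b => b ∉ Z y) = univ \ Z y := by ext b; simp
    rw [this]
    have h := card_sdiff_add_card_eq_card (subset_univ (Z y))
    rw [card_univ] at h
    omega
  calc ∑ b, ((univ.filter fun y => b ∉ Z y).card : ℤ)
      = ∑ b, ∑ y, (if b ∉ Z y then (1 : ℤ) else 0) := by
        refine Finset.sum_congr rfl fun b _ => ?_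
        rw [card_filter]; push_cast; rfl
    _ = ∑ y, ∑ b, (if b ∉ Z y then (1 : ℤ) else 0) := Finset.sum_comm
    _ = ∑ y, ((univ.filter fun b => b ∉ Z y).card : ℤ) := by
        refine Finset.sum_congr rfl fun b _ => ?_
        rw [card_filter]; push_cast; rfl
    _ = ∑ y, ((Fintype.card V : ℤ) - (Z y).card) := Finset.sum_congr rfl fun y _ => h1 y
    _ = _ := by
        rw [Finset.sum_sub_distrib]
        simp [sz, card_univ]

/-- The main step: a minimal counterexample does not exist. -/
theorem noMin [Nonempty V] {R : V → V → Prop} (hR : ∀ v, R v v)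
    (hA : ∀ a b, R a b → R b a → a = b) (hCE : CE R)
    (hplan : ∀ X : Finset V, nb R X ≠ X → c R (nb R X) < c R X) : False := by
  have hplan' : ∀ X : Finset V, c R (nb R X) ≤ c R X := by
    intro X
    by_cases h : nb R X = X
    · rw [h]
    · exact (hplan X h).le
  obtain ⟨⟨B, U⟩, hF, hmin⟩ := Set.exists_min_image
    {q : (V → Finset V) × (V → Finset V) | Feas R q.1 q.2} (fun q => out R q.1 q.2)
    (Set.toFinite _) ⟨(fun a => nb R {a}, fun a => nb R {a}), by
      refine ⟨?_, fun a => Subset.refl _, ?_⟩
      · intro a u h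
        exact mem_nb.2 ⟨a, mem_singleton_self a, h⟩
      · intro a x hx hxa
        obtain ⟨y, hy, h⟩ := mem_nb.1 hx
        rw [mem_singleton] at hy
        subst hy
        exact hA _ _ hxa h⟩
  have hF : Feas R B U := hF
  have hmin' : ∀ B' U', Feas R B' U' → out R B U ≤ out R B' U' :=
    fun B' U' h => hmin (B', U') h
  have hstar := star (R := R) hF.f2 (fun a S h1 h2 => row_opt hF hmin' a S h1 h2)
    (fun b T h => col_opt hF hmin' b T h) hR
  set X : V → Finset V := er R B with hX
  set L : V → Finset V := fun a => nb R (X a) with hL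
  set U0 : V → Finset V := fun a => (U a).erase a with hU0
  set W : V → Finset V := fun a => nb R (U0 a) with hW
  set AW : V → Finset V := er R W with hAW
  set M : V → Finset V := fun v => insert v (AW v) with hM
  have noself : ∀ v x, x ∈ AW v → R x v → False := by
    intro v x hx hxv
    obtain ⟨y, hy, hyx⟩ := mem_nb.1 (mem_er.1 hx x hxv)
    rw [hU0, mem_erase] at hy
    exact hy.1 (hF.f3 x y hy.2 hyx)
  have hBU : ∀ a u, R a u → u ∈ U a := fun a u h => hF.f2 a (hF.f1 a u h)
  -- feasibility of (L, M)
  have hFL : Feas R L M := by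
    refine ⟨?_, ?_, ?_⟩
    · intro a u h
      refine mem_nb.2 ⟨a, mem_er.2 fun z hz => hF.f1 z a hz, h⟩
    · intro a u hu
      obtain ⟨x, hx, hxu⟩ := mem_nb.1 hu
      rw [hX, mem_er] at hx
      by_contra hc
      rw [hM, mem_insert, not_or, hAW, mem_er] at hc
      obtain ⟨hua, hc⟩ := hc
      push Not at hc
      obtain ⟨z, hza, hz⟩ := hc
      by_cases hxz : x = z
      · subst hxz
        have hxa : x = a := hF.f3 a x (hF.f2 a (hx a (hR a))) hza
        subst hxa
        apply hz
        exact sub_nb hR _ (mem_erase.2 ⟨hua, hBU _ _ hxu⟩)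
      · apply hz
        exact mem_nb.2 ⟨x, mem_erase.2 ⟨hxz, hF.f2 z (hx z hza)⟩, hxu⟩
    · intro v x hx hxv
      rcases mem_insert.1 hx with h | h
      · exact h
      · exact (noself v x h hxv).elim
  have h1 := hmin' L M hFL
  -- cost of (L, M)
  have hszM : sz M = sz AW + Fintype.card V := by
    unfold sz
    have : ∀ a ∈ (univ : Finset V), ((M a).card : ℤ) = (AW a).card + 1 := by
      intro a _
      rw [hM, card_insert_of_notMem (fun h => noself a a h (hR a))]
      push_cast; ring
    rw [Finset.sum_congr rfl this, Finset.sum_add_distrib]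
    simp [card_univ]
  have hszE : sz (er R AW) + Fintype.card V ≤ sz (er R M) := by
    unfold sz
    have : ∀ a ∈ (univ : Finset V), ((er R AW a).card : ℤ) + 1 ≤ (er R M a).card := by
      intro v _
      have hv : v ∉ er R AW v := fun h => noself v v (mem_er.1 h v (hR v)) (hR v)
      have hs : insert v (er R AW v) ⊆ er R M v := by
        intro x hx
        rw [mem_er]
        intro z hz
        rcases mem_insert.1 hx with rfl | hx
        · rw [hM, mem_insert]
          by_cases hxz : x = z
          · exact Or.inl hxz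
          · right
            rw [hAW, mem_er]
            intro z' hz'
            by_cases hzz : z' = z
            · subst hzz
              exact sub_nb hR _ (mem_erase.2 ⟨hxz, hBU _ _ hz⟩)
            · exact mem_nb.2 ⟨z, mem_erase.2 ⟨fun h => hzz h.symm, hBU _ _ hz'⟩, hz⟩
        · exact mem_insert_of_mem (mem_er.1 hx z hz)
      have := card_le_card hs
      rw [card_insert_of_notMem hv] at this
      exact_mod_cast this
    calc ∑ a, ((er R AW a).card : ℤ) + Fintype.card V
        = ∑ a, (((er R AW a).card : ℤ) + 1) := by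
          rw [Finset.sum_add_distrib]; simp [card_univ]
      _ ≤ _ := Finset.sum_le_sum this
  -- the columns
  have hcolsum : 2 * sz AW ≤ sz W + sz (er R AW) := by
    have hn : ∀ (Z : V → Finset V) (b : V), nb R (univ.filter fun y => b ∉ Z y)
        = univ.filter fun y => b ∉ er R Z y := by
      intro Z b
      ext y
      simp only [mem_nb, mem_filter, mem_univ, true_and, mem_er]
      push Not
      exact ⟨fun ⟨x, h, h'⟩ => ⟨x, h', h⟩, fun ⟨x, h, h'⟩ => ⟨x, h', h⟩⟩
    have hb : ∀ b ∈ (univ : Finset V),
        ((univ.filter fun y => b ∉ er R AW y).card : ℤ) + (univ.filter fun y => b ∉ W y).card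
          ≤ 2 * (univ.filter fun y => b ∉ AW y).card := by
      intro b _
      have := hplan' (univ.filter fun y => b ∉ W y)
      unfold c at this
      rw [hn W b, ← hAW, hn AW b] at this
      linarith
    have hs := Finset.sum_le_sum hb
    rw [Finset.sum_add_distrib, ← Finset.mul_sum, cosz, cosz, cosz] at hs
    linarith
  -- comparison of the costs
  have hrows : sz (fun a => nb R (er R U a)) + sz W ≤ sz (fun a => nb R (U a)) + sz AW := by
    unfold sz
    rw [← Finset.sum_add_distrib, ← Finset.sum_add_distrib]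
    refine Finset.sum_le_sum fun a _ => ?_
    have hWs : W a ⊆ nb R (U a) := nb_mono (erase_subset _ _)
    have hs : nb R (er R U a) \ AW a ⊆ nb R (U a) \ W a := by
      intro u hu
      rw [mem_sdiff] at hu ⊢
      obtain ⟨hu1, hu2⟩ := hu
      obtain ⟨x, hx, hxu⟩ := mem_nb.1 hu1
      rw [mem_er] at hx
      refine ⟨mem_nb.2 ⟨x, hx a (hR a), hxu⟩, ?_⟩
      rw [hAW, mem_er] at hu2
      push Not at hu2
      obtain ⟨z, hza, hz⟩ := hu2
      by_cases hxz : x = z
      · subst hxz
        have hxa : x = a := hF.f3 a x (hx a (hR a)) hza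
        rw [← hxa]
        exact hz
      · exact (hz (mem_nb.2 ⟨x, mem_erase.2 ⟨hxz, hx z hza⟩, hxu⟩)).elim
    have h2 := card_le_card hs
    have h3 := card_sdiff_add_card_eq_card hWs
    have h4 : (nb R (er R U a)).card ≤ (nb R (er R U a) \ AW a).card + (AW a).card := by
      have : nb R (er R U a) ⊆ (nb R (er R U a) \ AW a) ∪ AW a := by
        intro x hx
        by_cases h : x ∈ AW a
        · exact mem_union_right _ h
        · exact mem_union_left _ (mem_sdiff.2 ⟨hx, h⟩)
      exact le_trans (card_le_card this) (card_union_le _ _)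
    have : (nb R (er R U a)).card + (W a).card ≤ (nb R (U a)).card + (AW a).card := by omega
    exact_mod_cast this
  -- strictness
  have hne : ∃ a, nb R (X a) ≠ X a := by
    by_contra hc
    push Not at hc
    obtain ⟨Z, ⟨hZne, hZc⟩, hZmin⟩ := Set.exists_min_image
      {Z : Finset V | Z.Nonempty ∧ nb R Z ⊆ Z} (fun Z => Z.card) (Set.toFinite _)
      ⟨univ, univ_nonempty, subset_univ _⟩
    obtain ⟨a, ha⟩ := hZne
    obtain ⟨a1, h1, h2⟩ : ∃ a1, R a a1 ∧ a1 ≠ a := by
      by_contra hcc
      push Not at hcc
      have : nb R {a} = {a} := by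
        ext u
        simp only [mem_nb, mem_singleton, exists_eq_left]
        exact ⟨hcc u, fun h => h ▸ hR u⟩
      have h := hCE a
      rw [this] at h
      exact lt_irrefl _ h
    have ha1 : a1 ∈ Z := hZc (mem_nb.2 ⟨a, ha, h1⟩)
    have hself : a1 ∈ X a1 := mem_er.2 fun z hz => hF.f1 z a1 hz
    have hcl : (X a1 ∩ Z) ∈ {Z : Finset V | Z.Nonempty ∧ nb R Z ⊆ Z} := by
      refine ⟨⟨a1, mem_inter.2 ⟨hself, ha1⟩⟩, ?_⟩
      refine subset_inter ?_ (Subset.trans (nb_mono inter_subset_right) hZc)
      have := nb_mono (R := R) (inter_subset_left (s₁ := X a1) (s₂ := Z))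
      rwa [hc a1] at this
    have hcard := hZmin _ hcl
    have heq : X a1 ∩ Z = Z := eq_of_subset_of_card_le inter_subset_right hcard
    have haX : a ∈ X a1 := by
      have : a ∈ X a1 ∩ Z := by rw [heq]; exact ha
      exact (mem_inter.1 this).1
    exact h2 (hF.f3 a1 a (hF.f2 a1 (mem_er.1 haX a1 (hR a1))) h1).symm
  have hstrict : ∑ a, c R (L a) < ∑ a, c R (X a) := by
    obtain ⟨a, ha⟩ := hne
    exact Finset.sum_lt_sum (fun b _ => hplan' (X b)) ⟨a, mem_univ a, hplan _ ha⟩
  -- bookkeeping
  have hc1 : ∑ v, c R (er R U v) = sz (fun a => nb R (er R U a)) - sz (er R U) := by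
    unfold c sz
    rw [Finset.sum_sub_distrib]
  have hc2 : ∑ a, c R (U a) = sz (fun a => nb R (U a)) - sz U := by
    unfold c sz
    rw [Finset.sum_sub_distrib]
  rw [Finset.sum_sub_distrib, Finset.sum_sub_distrib, hc1, hc2] at hstar
  unfold out at h1
  linarith

/-- No reflexive antisymmetric relation on a nonempty finite type is a counterexample. -/
theorem noCE [Nonempty V] (R : V → V → Prop) (hR : ∀ v, R v v)
    (hA : ∀ a b, R a b → R b a → a = b) : ¬ CE R := by
  intro hCE
  obtain ⟨Q, ⟨hQr, hQa, hQ⟩, hQmin⟩ := Set.exists_min_image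
    {Q : V → V → Prop | (∀ v, Q v v) ∧ (∀ a b, Q a b → Q b a → a = b) ∧ CE Q}
    (fun Q => (univ.filter fun p : V × V => Q p.1 p.2).card) (Set.toFinite _)
    ⟨R, hR, hA, hCE⟩
  refine noMin hQr hQa hQ (fun X hX => plan hQr hQ ?_ X hX)
  intro R' h1 h2 h3 a b hab
  have hcard := hQmin R' ⟨h1, fun a b h h' => hQa a b (h2 _ _ h) (h2 _ _ h'), h3⟩
  have hsub : (univ.filter fun p : V × V => R' p.1 p.2)
      ⊆ univ.filter fun p : V × V => Q p.1 p.2 := by
    intro p hp
    simp only [mem_filter, mem_univ, true_and] at hp ⊢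
    exact h2 _ _ hp
  have heq := eq_of_subset_of_card_le hsub hcard
  have : (a, b) ∈ univ.filter fun p : V × V => Q p.1 p.2 := by simpa using hab
  rw [← heq] at this
  simpa using this

/-- **Seymour's second neighbourhood conjecture**, Finset form. -/
theorem seymour [Nonempty V] (adj : V → V → Prop) (hor : ∀ u v, adj u v → ¬ adj v u) :
    ∃ v, (univ.filter fun u => adj v u).card
      ≤ (univ.filter fun w => w ≠ v ∧ ¬ adj v w ∧ ∃ u, adj v u ∧ adj u w).card := by
  by_contra hc
  push Not at hc
  have hirr : ∀ v, ¬ adj v v := fun v h => hor v v h h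
  refine noCE (fun a b => a = b ∨ adj a b) (fun v => Or.inl rfl) ?_ ?_
  · rintro a b (h | h) (h' | h')
    · exact h
    · exact h
    · exact h'.symm
    · exact (hor _ _ h h').elim
  · intro v
    set R : V → V → Prop := fun a b => a = b ∨ adj a b with hR
    set N1 := univ.filter fun u => adj v u with hN1
    set N2 := univ.filter fun w => w ≠ v ∧ ¬ adj v w ∧ ∃ u, adj v u ∧ adj u w with hN2
    have h1 : nb R {v} = insert v N1 := by
      ext u
      simp only [mem_nb, mem_singleton, exists_eq_left, mem_insert, hN1, mem_filter, mem_univ,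
        true_and, hR]
      constructor
      · rintro (h | h)
        · exact Or.inl h.symm
        · exact Or.inr h
      · rintro (h | h)
        · exact Or.inl h.symm
        · exact Or.inr h
    have h2 : nb R (nb R {v}) = insert v (N1 ∪ N2) := by
      rw [h1]
      ext u
      simp only [mem_nb, mem_insert, mem_union, hN1, hN2, mem_filter, mem_univ, true_and, hR]
      constructor
      · rintro ⟨x, hx, hxu⟩
        by_cases huv : u = v
        · exact Or.inl huv
        · right
          by_cases hadj : adj v u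
          · exact Or.inl hadj
          · right
            refine ⟨huv, hadj, ?_⟩
            rcases hx with rfl | hx
            · rcases hxu with h | h
              · exact absurd h.symm huv
              · exact absurd h hadj
            · rcases hxu with h | h
              · subst h; exact absurd hx hadj
              · exact ⟨x, hx, h⟩
      · rintro (h | h | ⟨_, _, x, hx, hxu⟩)
        · exact ⟨v, Or.inl rfl, Or.inl h.symm⟩
        · exact ⟨v, Or.inl rfl, Or.inr h⟩
        · exact ⟨x, Or.inr hx, Or.inr hxu⟩
    have hv1 : v ∉ N1 := by simp [hN1, hirr v]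
    have hv2 : v ∉ N1 ∪ N2 := by
      rw [mem_union, not_or]
      exact ⟨hv1, by simp [hN2]⟩
    have hdis : Disjoint N1 N2 := by
      rw [Finset.disjoint_left]
      intro x hx hx'
      simp only [hN1, hN2, mem_filter, mem_univ, true_and] at hx hx'
      exact hx'.2.1 hx
    have hlt := hc v
    unfold c
    rw [h2, h1, card_insert_of_notMem hv2, card_insert_of_notMem hv1,
      card_union_of_disjoint hdis, card_singleton]
    push_cast
    have : ((N2.card : ℕ) : ℤ) < N1.card := by exact_mod_cast hlt
    linarith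

end

end Vale.Agent.P038.H227
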