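import Mathlib

/-!
# P038 (Seymour): the min cut inequality (STAR) and the reduction, unweighted.
Independent copy (helper227) of the proofs of 465 (22696), 360 (22807), 357 (22687) over 294 (20944).
-/

namespace Vale.Agent.P038.H227

open Finset

noncomputable section
open Classical

variable {V : Type*} [Fintype V]

/-- closed out-neighbourhood of a set -/
def nb (R : V → V → Prop) (S : Finset V) : Finset V := univ.filter fun u => ∃ x ∈ S, R x u

def c (R : V → V → Prop) (S : Finset V) : ℤ := ((nb R S).card : ℤ) - S.card

/-- intersection of the rows over the closed in-neighbourhood -/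
def er (R : V → V → Prop) (B : V → Finset V) (v : V) : Finset V :=
  univ.filter fun x => ∀ z, R z v → x ∈ B z

def sz (B : V → Finset V) : ℤ := ∑ a, ((B a).card : ℤ)

lemma mem_nb {R : V → V → Prop} {S : Finset V} {u : V} : u ∈ nb R S ↔ ∃ x ∈ S, R x u := by
  simp [nb]

lemma mem_er {R : V → V → Prop} {B : V → Finset V} {v x : V} :
    x ∈ er R B v ↔ ∀ z, R z v → x ∈ B z := by
  simp [er]

lemma nb_union {R : V → V → Prop} (S T : Finset V) : nb R (S ∪ T) = nb R S ∪ nb R T := by
  ext u
  simp only [mem_nb, mem_union]
  constructor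
  · rintro ⟨x, hx | hx, h⟩
    · exact Or.inl ⟨x, hx, h⟩
    · exact Or.inr ⟨x, hx, h⟩
  · rintro (⟨x, hx, h⟩ | ⟨x, hx, h⟩)
    · exact ⟨x, Or.inl hx, h⟩
    · exact ⟨x, Or.inr hx, h⟩

lemma nb_mono {R : V → V → Prop} {S T : Finset V} (h : S ⊆ T) : nb R S ⊆ nb R T := by
  intro u hu
  obtain ⟨x, hx, hr⟩ := mem_nb.1 hu
  exact mem_nb.2 ⟨x, h hx, hr⟩

lemma c_sub {R : V → V → Prop} (S T : Finset V) :
    c R (S ∩ T) + c R (S ∪ T) ≤ c R S + c R T := by
  have h1 := card_union_add_card_inter (nb R S) (nb R T)
  have h2 := card_union_add_card_inter S T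
  have h3 : (nb R (S ∩ T)).card ≤ (nb R S ∩ nb R T).card :=
    card_le_card (subset_inter (nb_mono inter_subset_left) (nb_mono inter_subset_right))
  unfold c
  rw [nb_union]
  omega

structure Feas (R : V → V → Prop) (B U : V → Finset V) : Prop where
  f1 : ∀ a u, R a u → u ∈ B a
  f2 : ∀ a, B a ⊆ U a
  f3 : ∀ a x, x ∈ U a → R x a → x = a

def out (R : V → V → Prop) (B U : V → Finset V) : ℤ :=
  (∑ a, c R (B a)) + (sz U - sz (er R U))

lemma row_opt {R : V → V → Prop} {B U : V → Finset V} (hF : Feas R B U)
    (hmin : ∀ B' U', Feas R B' U' → out R B U ≤ out R B' U') (a : V) (S : Finset V)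
    (h1 : B a ⊆ S) (h2 : S ⊆ U a) : c R (B a) ≤ c R S := by
  have hF' : Feas R (Function.update B a S) U := by
    refine ⟨?_, ?_, hF.f3⟩
    · intro b u hu
      by_cases hb : b = a
      · subst hb; simpa using h1 (hF.f1 _ _ hu)
      · simpa [Function.update_of_ne hb] using hF.f1 _ _ hu
    · intro b
      by_cases hb : b = a
      · subst hb; simpa using h2
      · simpa [Function.update_of_ne hb] using hF.f2 b
  have h3 := hmin _ _ hF'
  unfold out at h3
  have hs : ∑ x, c R (Function.update B a S x) - ∑ x, c R (B x) = c R S - c R (B a) := by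
    rw [← Finset.sum_sub_distrib, Finset.sum_eq_single a]
    · simp
    · intro b _ hb; simp [Function.update_of_ne hb]
    · simp
  linarith

lemma col_opt {R : V → V → Prop} {B U : V → Finset V} (hF : Feas R B U)
    (hmin : ∀ B' U', Feas R B' U' → out R B U ≤ out R B' U') (b : V) (T : Finset V)
    (hT : ∀ a ∈ T, b ∈ U a ∧ b ∉ B a) :
    T.card ≤ (univ.filter fun v => (∃ a ∈ T, R a v) ∧ b ∈ er R U v).card := by
  set U' : V → Finset V := fun a => if a ∈ T then (U a).erase b else U a with hU'
  have hsub : ∀ a, U' a ⊆ U a := by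
    intro a
    simp only [hU']
    split_ifs
    · exact erase_subset _ _
    · exact Subset.refl _
  have hF' : Feas R B U' := by
    refine ⟨hF.f1, ?_, fun a x hx => hF.f3 a x (hsub a hx)⟩
    intro a x hx
    simp only [hU']
    split_ifs with h
    · refine mem_erase.2 ⟨?_, hF.f2 a hx⟩
      rintro rfl
      exact (hT a h).2 hx
    · exact hF.f2 a hx
  have h3 := hmin _ _ hF'
  unfold out at h3
  have h1 : sz U - sz U' = T.card := by
    unfold sz
    rw [← Finset.sum_sub_distrib]
    have : ∀ a ∈ (univ : Finset V), ((U a).card : ℤ) - ((U' a).card : ℤ)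
        = if a ∈ T then 1 else 0 := by
      intro a _
      simp only [hU']
      split_ifs with h
      · have := card_erase_add_one (hT a h).1
        omega
      · simp
    rw [Finset.sum_congr rfl this]
    simp
  have h2 : sz (er R U) - sz (er R U')
      = (univ.filter fun v => (∃ a ∈ T, R a v) ∧ b ∈ er R U v).card := by
    unfold sz
    rw [← Finset.sum_sub_distrib]
    have : ∀ v ∈ (univ : Finset V), ((er R U v).card : ℤ) - ((er R U' v).card : ℤ)
        = if ((∃ a ∈ T, R a v) ∧ b ∈ er R U v) then 1 else 0 := by
      intro v _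
      by_cases hv : ∃ a ∈ T, R a v
      · have he : er R U' v = (er R U v).erase b := by
          ext x
          rw [mem_erase, mem_er, mem_er]
          constructor
          · intro h
            refine ⟨?_, fun z hz => hsub z (h z hz)⟩
            obtain ⟨a, ha, hav⟩ := hv
            have := h a hav
            simp only [hU', if_pos ha] at this
            exact (mem_erase.1 this).1
          · rintro ⟨hx, h⟩ z hz
            simp only [hU']
            split_ifs
            · exact mem_erase.2 ⟨hx, h z hz⟩
            · exact h z hz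
        rw [he]
        by_cases hb : b ∈ er R U v
        · rw [if_pos ⟨hv, hb⟩]
          have := card_erase_add_one hb
          omega
        · rw [if_neg (fun h => hb h.2), erase_eq_of_notMem hb]
          simp
      · have he : er R U' v = er R U v := by
          ext x
          rw [mem_er, mem_er]
          refine forall_congr' fun z => imp_congr_right fun hz => ?_
          have : z ∉ T := fun h => hv ⟨z, h, hz⟩
          simp only [hU', if_neg this]
        rw [he, if_neg (fun h => hv h.1)]
        simp
    rw [Finset.sum_congr rfl this]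
    simp
  have : (T.card : ℤ) ≤ (univ.filter fun v => (∃ a ∈ T, R a v) ∧ b ∈ er R U v).card := by
    linarith
  exact_mod_cast this

lemma layer (d e : V → ℕ)
    (h : ∀ t, (univ.filter fun a => t < d a).card ≤ (univ.filter fun v => t < e v).card) :
    ∑ a, d a ≤ ∑ v, e v := by
  set M := ∑ a, d a with hM
  have hd : ∀ a ∈ (univ : Finset V), d a = ∑ t ∈ range M, if t < d a then 1 else 0 := by
    intro a ha
    have h1 : d a ≤ M := single_le_sum (f := d) (fun _ _ => Nat.zero_le _) ha
    rw [← card_filter]
    have : (range M).filter (fun t => t < d a) = range (d a) := by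
      ext t; simp only [mem_filter, mem_range]; omega
    rw [this, card_range]
  have he : ∀ v ∈ (univ : Finset V), (∑ t ∈ range M, if t < e v then 1 else 0) ≤ e v := by
    intro v _
    rw [← card_filter]
    calc ((range M).filter (fun t => t < e v)).card ≤ (range (e v)).card := by
          apply card_le_card
          intro t; simp only [mem_filter, mem_range]; omega
      _ = e v := card_range _
  calc M = ∑ a, ∑ t ∈ range M, (if t < d a then 1 else 0) := by
        rw [hM]; exact Finset.sum_congr rfl hd
    _ = ∑ t ∈ range M, ∑ a, (if t < d a then 1 else 0) := Finset.sum_comm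
    _ ≤ ∑ t ∈ range M, ∑ v, (if t < e v then 1 else 0) := by
        apply Finset.sum_le_sum
        intro t _
        have := h t
        rw [card_filter, card_filter] at this
        exact this
    _ = ∑ v, ∑ t ∈ range M, (if t < e v then 1 else 0) := Finset.sum_comm
    _ ≤ ∑ v, e v := Finset.sum_le_sum he

def mn (R : V → V → Prop) (lo hi : Finset V) : ℤ :=
  if h : (Finset.Icc lo hi).Nonempty then (Finset.Icc lo hi).inf' h (c R) else 0

lemma mn_le {R : V → V → Prop} {lo hi S : Finset V} (h1 : lo ⊆ S) (h2 : S ⊆ hi) :
    mn R lo hi ≤ c R S := by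
  have hm : S ∈ Finset.Icc lo hi := Finset.mem_Icc.2 ⟨h1, h2⟩
  unfold mn
  rw [dif_pos ⟨S, hm⟩]
  exact Finset.inf'_le _ hm

lemma mn_mem {R : V → V → Prop} {lo hi : Finset V} (h : lo ⊆ hi) :
    ∃ S, lo ⊆ S ∧ S ⊆ hi ∧ c R S = mn R lo hi := by
  have hn : (Finset.Icc lo hi).Nonempty := ⟨lo, Finset.mem_Icc.2 ⟨Subset.refl _, h⟩⟩
  obtain ⟨S, hS, he⟩ := Finset.exists_mem_eq_inf' hn (c R)
  refine ⟨S, (Finset.mem_Icc.1 hS).1, (Finset.mem_Icc.1 hS).2, ?_⟩
  unfold mn
  rw [dif_pos hn, he]

lemma er_sub {R : V → V → Prop} {B : V → Finset V} {a v : V} (h : R a v) : er R B v ⊆ B a :=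
  fun _ hx => mem_er.1 hx a h

lemma er_mono {R : V → V → Prop} {B U : V → Finset V} (h : ∀ a, B a ⊆ U a) (v : V) :
    er R B v ⊆ er R U v :=
  fun _ hx => mem_er.2 fun z hz => h z (mem_er.1 hx z hz)

/-- (STAR) -/
theorem star {R : V → V → Prop} {B U : V → Finset V}
    (hBU : ∀ a, B a ⊆ U a)
    (hrow : ∀ a S, B a ⊆ S → S ⊆ U a → c R (B a) ≤ c R S)
    (hcol : ∀ (b : V) (T : Finset V), (∀ a ∈ T, b ∈ U a ∧ b ∉ B a) →
      T.card ≤ (univ.filter fun v => (∃ a ∈ T, R a v) ∧ b ∈ er R U v).card)
    (hR : ∀ v, R v v) :
    ∑ a, (c R (U a) - c R (B a)) ≤ ∑ v, (c R (er R U v) - c R (er R B v)) := by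
  set m : V → Finset V → ℤ := fun a W => mn R (B a ∪ (W ∩ U a)) (U a) with hm
  set p : V → Finset V → ℤ := fun v W => mn R (er R B v ∪ (W ∩ er R U v)) (er R U v) with hp
  have mI : ∀ a W, B a ∪ (W ∩ U a) ⊆ U a := fun a W => union_subset (hBU a) inter_subset_right
  have pI : ∀ v W, er R B v ∪ (W ∩ er R U v) ⊆ er R U v :=
    fun v W => union_subset (er_mono hBU v) inter_subset_right
  have m_mono : ∀ a W b, m a W ≤ m a (insert b W) := by
    intro a W b
    obtain ⟨S, h1, h2, h3⟩ := mn_mem (R := R) (mI a (insert b W))
    simp only [hm]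
    rw [← h3]
    refine mn_le (Subset.trans ?_ h1) h2
    exact union_subset_union (Subset.refl _) (inter_subset_inter (subset_insert _ _) (Subset.refl _))
  have p_mono : ∀ a W b, p a W ≤ p a (insert b W) := by
    intro a W b
    obtain ⟨S, h1, h2, h3⟩ := mn_mem (R := R) (pI a (insert b W))
    simp only [hp]
    rw [← h3]
    refine mn_le (Subset.trans ?_ h1) h2
    exact union_subset_union (Subset.refl _) (inter_subset_inter (subset_insert _ _) (Subset.refl _))
  have m_same : ∀ a W b, ¬ (b ∈ U a ∧ b ∉ B a) → m a (insert b W) = m a W := by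
    intro a W b hb
    simp only [hm]
    congr 1
    ext x
    simp only [mem_union, mem_inter, mem_insert]
    constructor
    · rintro (h | ⟨rfl | h, h'⟩)
      · exact Or.inl h
      · left
        by_contra hc
        exact hb ⟨h', hc⟩
      · exact Or.inr ⟨h, h'⟩
    · rintro (h | ⟨h, h'⟩)
      · exact Or.inl h
      · exact Or.inr ⟨Or.inr h, h'⟩
  have claim1 : ∀ a v W b, R a v → b ∈ er R U v →
      m a (insert b W) + p v W ≤ m a W + p v (insert b W) := by
    intro a v W b hav hb
    obtain ⟨S, hS1, hS2, hS3⟩ := mn_mem (R := R) (pI v (insert b W))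
    obtain ⟨T, hT1, hT2, hT3⟩ := mn_mem (R := R) (mI a W)
    have h1 : p v W ≤ c R (S ∩ T) := by
      refine mn_le (union_subset ?_ ?_) (Subset.trans inter_subset_left hS2)
      · refine subset_inter (Subset.trans subset_union_left hS1) ?_
        exact Subset.trans (er_sub hav) (Subset.trans subset_union_left hT1)
      · intro x hx
        rw [mem_inter] at hx
        refine mem_inter.2 ⟨hS1 ?_, hT1 ?_⟩
        · exact mem_union_right _ (mem_inter.2 ⟨mem_insert_of_mem hx.1, hx.2⟩)
        · exact mem_union_right _ (mem_inter.2 ⟨hx.1, er_sub hav hx.2⟩)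
    have h2 : m a (insert b W) ≤ c R (S ∪ T) := by
      refine mn_le (union_subset ?_ ?_) (union_subset (Subset.trans hS2 (er_sub hav)) hT2)
      · exact Subset.trans (Subset.trans subset_union_left hT1) subset_union_right
      · intro x hx
        rw [mem_inter, mem_insert] at hx
        rcases hx.1 with rfl | hxW
        · refine mem_union_left _ (hS1 ?_)
          exact mem_union_right _ (mem_inter.2 ⟨mem_insert_self _ _, hb⟩)
        · exact mem_union_right _ (hT1 (mem_union_right _ (mem_inter.2 ⟨hxW, hx.2⟩)))
    have h3 := c_sub (R := R) S T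
    have e1 : c R S = p v (insert b W) := hS3
    have e2 : c R T = m a W := hT3
    linarith
  have step : ∀ W b, ∑ a, (m a (insert b W) - m a W) ≤ ∑ v, (p v (insert b W) - p v W) := by
    intro W b
    have h := layer (fun a => (m a (insert b W) - m a W).toNat)
      (fun v => (p v (insert b W) - p v W).toNat) (by
        intro t
        refine le_trans (hcol b _ ?_) (card_le_card ?_)
        · intro a ha
          simp only [mem_filter, mem_univ, true_and] at ha
          by_contra hc
          rw [m_same a W b hc] at ha
          simp at ha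
        · intro v hv
          simp only [mem_filter, mem_univ, true_and] at hv ⊢
          obtain ⟨⟨a, ha, hav⟩, hb⟩ := hv
          have := claim1 a v W b hav hb
          omega)
    have h1 : ∀ a ∈ (univ : Finset V), (m a (insert b W) - m a W)
        = (((m a (insert b W) - m a W).toNat : ℕ) : ℤ) := by
      intro a _
      rw [Int.toNat_of_nonneg (by have := m_mono a W b; linarith)]
    have h2 : ∀ a ∈ (univ : Finset V), (p a (insert b W) - p a W)
        = (((p a (insert b W) - p a W).toNat : ℕ) : ℤ) := by
      intro a _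
      rw [Int.toNat_of_nonneg (by have := p_mono a W b; linarith)]
    rw [Finset.sum_congr rfl h1, Finset.sum_congr rfl h2]
    exact_mod_cast h
  have ind : ∀ W : Finset V, ∑ a, (m a W - m a ∅) ≤ ∑ v, (p v W - p v ∅) := by
    intro W
    induction W using Finset.induction_on with
    | empty => simp
    | insert b W _ ih =>
      have := step W b
      simp only [Finset.sum_sub_distrib] at this ih ⊢
      linarith
  have p0 : ∀ v, c R (er R B v) ≤ p v ∅ := by
    intro v
    obtain ⟨S, h1, h2, h3⟩ := mn_mem (R := R) (pI v ∅)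
    have h1' : er R B v ⊆ S := Subset.trans subset_union_left h1
    have key : ∀ s : Finset V, (∀ z ∈ s, R z v) →
        c R (S.filter fun x => ∀ z ∈ s, x ∈ B z) ≤ c R S := by
      intro s
      induction s using Finset.induction_on with
      | empty => intro _; simp
      | insert z s _ ih =>
        intro hs
        have ih' := ih (fun y hy => hs y (mem_insert_of_mem hy))
        set T := S.filter fun x => ∀ z ∈ s, x ∈ B z with hT
        have he : (S.filter fun x => ∀ y ∈ insert z s, x ∈ B y) = T ∩ B z := by
          ext x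
          simp only [hT, mem_filter, mem_inter, mem_insert, forall_eq_or_imp]
          tauto
        rw [he]
        have hz : R z v := hs z (mem_insert_self _ _)
        have h4 : c R (B z) ≤ c R (T ∪ B z) := by
          refine hrow z _ subset_union_right (union_subset ?_ (hBU z))
          exact Subset.trans (filter_subset _ _) (Subset.trans h2 (er_sub hz))
        have h5 := c_sub (R := R) T (B z)
        linarith
    have h6 := key (univ.filter fun z => R z v) (by simp)
    have h7 : (S.filter fun x => ∀ z ∈ univ.filter (fun z => R z v), x ∈ B z) = er R B v := by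
      ext x
      simp only [mem_filter, mem_univ, true_and, mem_er]
      constructor
      · rintro ⟨_, h⟩; exact h
      · intro h; exact ⟨h1' (mem_er.2 h), h⟩
    rw [h7] at h6
    have e3 : c R S = p v ∅ := h3
    linarith
  have hu := ind univ
  have hmu : ∀ a, c R (U a) ≤ m a univ := by
    intro a
    obtain ⟨S, h1, h2, h3⟩ := mn_mem (R := R) (mI a univ)
    have : S = U a := by
      refine Subset.antisymm h2 (Subset.trans ?_ h1)
      intro x hx
      exact mem_union_right _ (mem_inter.2 ⟨mem_univ _, hx⟩)
    rw [this] at h3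
    exact h3.le
  have hm0 : ∀ a, m a ∅ ≤ c R (B a) := by
    intro a
    refine mn_le ?_ (hBU a)
    simp
  have hpu : ∀ v, p v univ ≤ c R (er R U v) := fun v => mn_le (pI v univ) (Subset.refl _)
  calc ∑ a, (c R (U a) - c R (B a)) ≤ ∑ a, (m a univ - m a ∅) :=
        Finset.sum_le_sum fun a _ => by have := hmu a; have := hm0 a; linarith
    _ ≤ ∑ v, (p v univ - p v ∅) := hu
    _ ≤ ∑ v, (c R (er R U v) - c R (er R B v)) :=
        Finset.sum_le_sum fun v _ => by have := hpu v; have := p0 v; linarith

end

end Vale.Agent.P038.H227
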